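import Vale.Agent.P011.D4T.HDefs
import Vale.Agent.P011.D4T.H369.AutI

/-!
The group of permutations and the group of linear maps; the data over the ground field and the
model.
-/

open Module NumberField

namespace Vale.Agent.P011.D4T

open Vale.Agent.P011.MPQ Vale.Agent.P011.D4 Vale.Agent.P011.D4.Oct

section hom

variable {k L E : Type} [Field k] [Field L] [Field E] [Algebra k L] [Algebra k E] [Algebra L E]
  [IsScalarTower k L E] {ρ σ : E ≃ₐ[k] E} {α : E} {a b c : kˣ} {q : Lˣ}

theorem Jt_eq (x : OctL E a b c) : Jt ρ σ α (algebraMap L E (q : L)) x = Jm ρ σ α q x :=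
  (H369.Jm_eq x).symm

/-- The two descriptions of the group agree. -/
def toTT : GT ρ σ α a b c q →* TT ρ σ α (algebraMap L E (q : L)) a b c where
  toFun g := ⟨g.1.toEquiv, fun x y => map_add g.1 x y, fun t x => map_smul g.1 t x, g.2.1,
    fun x => by
      rw [Jt_eq, Jt_eq]
      exact g.2.2 x⟩
  map_one' := rfl
  map_mul' _ _ := rfl

theorem toTT_surjective : Function.Surjective (toTT (ρ := ρ) (σ := σ) (α := α) (a := a) (b := b)
    (c := c) (q := q)) := by
  rintro ⟨g, g1, g2, g3, g4⟩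
  refine ⟨⟨{ g with
    map_add' := g1
    map_smul' := g2 }, fun x y => g3 x y, fun x => ?_⟩, ?_⟩
  · rw [← Jt_eq, ← Jt_eq]
    exact g4 x
  · apply Subtype.ext
    apply Equiv.ext
    intro x
    rfl

theorem toTT_injective : Function.Injective (toTT (ρ := ρ) (σ := σ) (α := α) (a := a) (b := b)
    (c := c) (q := q)) := by
  intro g h hgh
  apply Subtype.ext
  apply LinearEquiv.ext
  intro x
  exact congrArg (fun f : TT ρ σ α (algebraMap L E (q : L)) a b c =>
    (f : Equiv.Perm (OctL E a b c)) x) hgh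

/-- The statement for the permutations from the statement for the linear maps. -/
theorem tt_of (h : ∀ N : Subgroup (GT ρ σ α a b c q), N.index ≠ 0 → N = ⊤)
    (N : Subgroup (TT ρ σ α (algebraMap L E (q : L)) a b c)) (hN : N.index ≠ 0) : N = ⊤ := by
  have h1 : N.comap (toTT (ρ := ρ) (σ := σ) (α := α) (a := a) (b := b) (c := c) (q := q)) = ⊤ := by
    apply h
    rw [Subgroup.index_comap_of_surjective _ toTT_surjective]
    exact hN
  rw [eq_top_iff]
  intro φ _
  obtain ⟨ψ, rfl⟩ := toTT_surjective φ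
  have h3 : ψ ∈ N.comap toTT := by rw [h1]; exact Subgroup.mem_top ψ
  exact h3

/-- The statement on normal subgroups for the permutations from the statement for the linear
maps. -/
theorem tt_normal_of (h : ∀ N : Subgroup (GT ρ σ α a b c q), N.Normal → N = ⊥ ∨ N = ⊤)
    (N : Subgroup (TT ρ σ α (algebraMap L E (q : L)) a b c)) (hN : N.Normal) :
    N = ⊥ ∨ N = ⊤ := by
  rcases h (N.comap (toTT (ρ := ρ) (σ := σ) (α := α) (a := a) (b := b) (c := c) (q := q)))
    (hN.comap _) with h | h
  · left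
    rw [eq_bot_iff]
    intro φ hφ
    obtain ⟨ψ, rfl⟩ := toTT_surjective φ
    have h3 : ψ ∈ N.comap toTT := hφ
    rw [h, Subgroup.mem_bot] at h3
    rw [h3, map_one]
    exact Subgroup.one_mem _
  · right
    rw [eq_top_iff]
    intro φ _
    obtain ⟨ψ, rfl⟩ := toTT_surjective φ
    have h3 : ψ ∈ N.comap toTT := by rw [h]; exact Subgroup.mem_top ψ
    exact h3

end hom

/-- A real embedding extends to a complex embedding of an algebraic extension. -/
theorem exists_lift {F E : Type} [Field F] [Field E] [Algebra F E] [Algebra.IsAlgebraic F E]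
    (w : F →+* ℝ) : ∃ W : E →+* ℂ, ∀ t, W (algebraMap F E t) = ((w t : ℝ) : ℂ) := by
  let _ : Algebra F ℂ := ((algebraMap ℝ ℂ).comp w).toAlgebra
  have h : ∃ W : E →ₐ[F] ℂ, True := ⟨IsAlgClosed.lift, trivial⟩
  obtain ⟨W, -⟩ := h
  exact ⟨W, fun t => W.commutes t⟩

section data

variable {k E : Type} [Field k] [Field E] [Algebra k E]

/-- The fixed field of `σ`. -/
abbrev LL (σ : E ≃ₐ[k] E) : IntermediateField k E :=
  IntermediateField.fixedField (Subgroup.zpowers σ)

theorem mem_LL {σ : E ≃ₐ[k] E} {x : E} : x ∈ LL σ ↔ σ x = x := by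
  rw [LL, IntermediateField.mem_fixedField_iff]
  constructor
  · intro h
    exact h σ (Subgroup.mem_zpowers σ)
  · intro h f hf
    obtain ⟨n, rfl⟩ := Subgroup.mem_zpowers_iff.mp hf
    have h1 : ∀ m : ℕ, (σ ^ m) x = x := by
      intro m
      induction m with
      | zero => rfl
      | succ m ih => rw [pow_succ, AlgEquiv.mul_apply, h, ih]
    obtain ⟨m, rfl | rfl⟩ := n.eq_nat_or_neg
    · rw [zpow_natCast]
      exact h1 m
    · rw [zpow_neg, zpow_natCast]
      apply (σ ^ m).injective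
      rw [← AlgEquiv.mul_apply, mul_inv_cancel, AlgEquiv.one_apply, h1]

/-- The restriction of `ρ` to the fixed field of `σ`. -/
def rhoL {ρ σ : E ≃ₐ[k] E} (hc : ∀ x, σ (ρ x) = ρ (σ x)) (h3 : ∀ x, ρ (ρ (ρ x)) = x) :
    LL σ ≃ₐ[k] LL σ where
  toFun x := ⟨ρ x, mem_LL.mpr (by rw [hc, mem_LL.mp x.2])⟩
  invFun x := ⟨ρ (ρ x), mem_LL.mpr (by rw [hc, hc, mem_LL.mp x.2])⟩
  left_inv x := Subtype.ext (h3 _)
  right_inv x := Subtype.ext (h3 _)
  map_mul' x y := Subtype.ext (map_mul ρ _ _)
  map_add' x y := Subtype.ext (map_add ρ _ _)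
  commutes' t := Subtype.ext (ρ.commutes t)

variable {ρ σ : E ≃ₐ[k] E} {α q : E} {a b c : kˣ}

theorem IsData.finite (H : IsData ρ σ α q a b c) : FiniteDimensional k E :=
  Module.finite_of_finrank_pos (by rw [H.deg]; norm_num)

theorem IsData.α0 (H : IsData ρ σ α q a b c) : α ≠ 0 := by
  intro h
  have h1 := H.α2
  rw [h, zero_pow two_ne_zero] at h1
  exact a.ne_zero ((map_eq_zero _).mp h1.symm)

theorem IsData.q0 (H : IsData ρ σ α q a b c) : q ≠ 0 := by
  intro h
  have h1 := H.nq
  rw [h, zero_mul, zero_mul] at h1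
  exact zero_ne_one h1

theorem IsData.h2 [NeZero (2 : E)] (H : IsData ρ σ α q a b c) : finrank (LL σ) E = 2 := by
  have := H.finite
  have h1 : σ ≠ 1 := by
    intro h
    have h1 := H.σα
    rw [h, AlgEquiv.one_apply] at h1
    have h2 : (2 : E) * α = 0 := by linear_combination h1
    exact H.α0 ((mul_eq_zero.mp h2).resolve_left (NeZero.ne 2))
  have h2 : orderOf σ = 2 := orderOf_eq_prime (by
    apply AlgEquiv.ext
    intro x
    exact H.σ2 x) h1
  have h3 := IntermediateField.finrank_fixedField_eq_card (F := k) (E := E) (Subgroup.zpowers σ)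
  rwa [Nat.card_zpowers, h2] at h3

theorem IsData.h3 [NeZero (2 : E)] (H : IsData ρ σ α q a b c) : finrank k (LL σ) = 3 := by
  have := H.finite
  have h1 := Module.finrank_mul_finrank k (LL σ) E
  rw [H.h2, H.deg] at h1
  omega

/-- The element `q` of the fixed field. -/
noncomputable def IsData.qL (H : IsData ρ σ α q a b c) : (LL σ)ˣ :=
  Units.mk0 ⟨q, mem_LL.mpr H.σq⟩ fun h => H.q0 (congrArg Subtype.val h)

theorem IsData.algebraMap_qL (H : IsData ρ σ α q a b c) :
    algebraMap (LL σ) E (H.qL : LL σ) = q := rfl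

/-- The model. -/
theorem IsData.hy [NeZero (2 : E)] (H : IsData ρ σ α q a b c) :
    Hy (L := LL σ) ρ σ (rhoL H.comm H.ρ3) α a b c H.qL := by
  have hfin := H.finite
  have h2 : (2 : E) ≠ 0 := NeZero.ne 2
  refine ⟨H.h3, H.h2, ?_, H.ρ3, fun _ => rfl, fun t => mem_LL.mp t.2, H.σ2, H.comm, ?_, H.ρα,
    H.σα, Subtype.ext H.nq, H.div, ?_⟩
  · intro h
    obtain ⟨x, hx⟩ := H.ρ1
    -- `x` is a combination of `1` and `α` over the fixed field of `σ`
    have hL : ∀ u : E, σ u = u → ρ u = u := by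
      intro u hu
      have h1 := congrArg (fun f : LL σ ≃ₐ[k] LL σ => (f ⟨u, mem_LL.mpr hu⟩ : E)) h
      exact h1
    apply hx
    have hα := H.α0
    have e1 : x = (x + σ x) / 2 + (x - σ x) / (2 * α) * α := by
      field_simp
      ring
    have e2 : σ (2 : E) = 2 := map_ofNat σ 2
    have u1 : σ ((x + σ x) / 2) = (x + σ x) / 2 := by
      rw [map_div₀, map_add, H.σ2, e2, add_comm]
    have u2 : σ ((x - σ x) / (2 * α)) = (x - σ x) / (2 * α) := by
      rw [map_div₀, map_sub, map_mul, H.σ2, e2, H.σα]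
      field_simp
      ring
    conv_lhs => rw [e1, map_add, map_mul, hL _ u1, hL _ u2, H.ρα]
    exact e1.symm
  · rw [← pow_two]
    exact H.α2
  · intro w hw
    obtain ⟨h1, h2, h3⟩ := H.real (w.comp (algebraMap k (LL σ))) hw
    refine ⟨h1, h2, ?_⟩
    have halg : Algebra.IsAlgebraic (LL σ) E := Algebra.IsAlgebraic.of_finite (LL σ) E
    obtain ⟨W, hW⟩ := exists_lift (E := E) w
    have h4 := h3 W fun t => hW (algebraMap k (LL σ) t)
    have h5 : W q = ((w (H.qL : LL σ) : ℝ) : ℂ) := hW (H.qL : LL σ)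
    rw [h5, Complex.ofReal_re] at h4
    exact h4

end data

end Vale.Agent.P011.D4T
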