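import Mathlib

/-!
P011, block D4T (trialitarian `D₄` with arbitrary Tits class, proof of helper67, referee helper61).
The abstract group lemma: a group `A` (the adjoint group) acts on a set `T` (the involutions) and
on a set `S` (the subgroups `SU₃`), `R t s` means `t ∈ s`; `N` is a normal subgroup of `A`
contained in the kernel of `cl : A →* Θ` (`Θ` abelian).  Then `cl.ker ≤ N`.
-/

namespace Vale.Agent.P011.D4T

variable {A Θ T S : Type*} [Group A] [CommGroup Θ] [MulAction A T] [MulAction A S]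

/-- One step: from `s` to `z • s`, where `z` fixes a point `t` of `s`. -/
def Step (A : Type*) {T S : Type*} [Group A] [MulAction A T] [MulAction A S]
    (R : T → S → Prop) (s s' : S) : Prop :=
  ∃ (t : T) (z : A), R t s ∧ z • t = t ∧ z • s = s'

/-- All translates of `s` can be reached from `s` by steps. -/
def Conn (A : Type*) {T S : Type*} [Group A] [MulAction A T] [MulAction A S]
    (R : T → S → Prop) (s : S) : Prop :=
  ∀ g : A, Relation.ReflTransGen (Step A R) s (g • s)

section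

variable {R : T → S → Prop} {N : Subgroup A} {cl : A →* Θ}

/-- Steps stay in the orbit of the subgroup generated by the stabilisers of the points of `s`. -/
theorem reach {H : Subgroup A} {s0 : S}
    (hR : ∀ (g : A) (t : T) (s : S), R t s → R (g • t) (g • s))
    (hH : ∀ (t : T) (z : A), R t s0 → z • t = t → z ∈ H)
    {s : S} (hs : Relation.ReflTransGen (Step A R) s0 s) : ∃ y ∈ H, y • s0 = s := by
  induction hs with
  | refl => exact ⟨1, H.one_mem, one_smul _ _⟩
  | tail _ h ih =>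
    obtain ⟨y, hy, rfl⟩ := ih
    obtain ⟨t, z, hts, hzt, rfl⟩ := h
    have h1 : R (y⁻¹ • t) s0 := by
      have := hR y⁻¹ _ _ hts
      rwa [inv_smul_smul] at this
    have h2 : (y⁻¹ * z * y) • (y⁻¹ • t) = y⁻¹ • t := by
      rw [← mul_smul, mul_assoc, mul_assoc, mul_inv_cancel, mul_one, mul_smul, hzt]
    have h3 := hH _ _ h1 h2
    refine ⟨z * y, ?_, by rw [mul_smul]⟩
    have : z * y = y * (y⁻¹ * z * y) := by group
    rw [this]
    exact H.mul_mem hy h3

/-- (2) of the proof: `A` is generated by `N` and the stabilisers of the points of `s0`. -/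
theorem gen {H : Subgroup A} {s0 : S} {t0 : T}
    (hR : ∀ (g : A) (t : T) (s : S), R t s → R (g • t) (g • s))
    (hNH : N ≤ H)
    (hH : ∀ (t : T) (z : A), R t s0 → z • t = t → z ∈ H)
    (hb : ∀ (t : T) (s : S) (z : A), R t s → z • s = s → ∃ n ∈ N, (n * z) • t = t)
    (h0 : R t0 s0) (hc : Conn A R s0) (g : A) : g ∈ H := by
  obtain ⟨y, hy, hys⟩ := reach hR hH (hc g)
  have h1 : (y⁻¹ * g) • s0 = s0 := by
    rw [mul_smul, ← hys, inv_smul_smul]
  obtain ⟨n, hn, hnt⟩ := hb t0 s0 _ h0 h1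
  have h2 := hH _ _ h0 hnt
  have h3 : g = y * (n⁻¹ * (n * (y⁻¹ * g))) := by group
  rw [h3]
  exact H.mul_mem hy (H.mul_mem (H.inv_mem (hNH hn)) h2)

/-- `z` is central modulo `N`. -/
def CenMod (N : Subgroup A) (z : A) : Prop := ∀ g : A, z * g * z⁻¹ * g⁻¹ ∈ N

/-- The elements which commute with `z` modulo `N`. -/
def comMod (N : Subgroup A) [N.Normal] (z : A) : Subgroup A :=
  (Subgroup.centralizer {(QuotientGroup.mk' N z)}).comap (QuotientGroup.mk' N)

theorem mem_comMod [N.Normal] {z g : A} : g ∈ comMod N z ↔ z * g * z⁻¹ * g⁻¹ ∈ N := by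
  rw [comMod, Subgroup.mem_comap, Subgroup.mem_centralizer_singleton_iff,
    ← QuotientGroup.eq_one_iff (N := N)]
  simp only [QuotientGroup.mk'_apply, QuotientGroup.mk_mul, QuotientGroup.mk_inv]
  rw [mul_inv_eq_one, mul_inv_eq_iff_eq_mul]
  exact eq_comm

theorem cenMod_iff [N.Normal] {z : A} :
    CenMod N z ↔ (QuotientGroup.mk' N z) ∈ Subgroup.center (A ⧸ N) := by
  rw [Subgroup.mem_center_iff]
  constructor
  · intro h g
    obtain ⟨g, rfl⟩ := QuotientGroup.mk'_surjective N g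
    have := mem_comMod.2 (h g)
    rw [comMod, Subgroup.mem_comap, Subgroup.mem_centralizer_singleton_iff] at this
    exact this
  · intro h g
    refine mem_comMod.1 ?_
    rw [comMod, Subgroup.mem_comap, Subgroup.mem_centralizer_singleton_iff]
    exact h _

/-- (3) of the proof: the stabiliser of `s0` is central modulo `N`. -/
theorem cen_line [N.Normal] {s0 : S} {t0 : T}
    (hR : ∀ (g : A) (t : T) (s : S), R t s → R (g • t) (g • s))
    (ha : ∀ (t : T) (z : A), z • t = t → cl z = 1 → z ∈ N)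
    (hb : ∀ (t : T) (s : S) (z : A), R t s → z • s = s → ∃ n ∈ N, (n * z) • t = t)
    (h0 : R t0 s0) (hc : Conn A R s0) {z : A} (hz : z • s0 = s0) : CenMod N z := by
  intro g
  rw [← mem_comMod]
  refine gen (N := N) (t0 := t0) hR ?_ ?_ hb h0 hc g
  · intro n hn
    rw [mem_comMod]
    have h1 : z * n * z⁻¹ ∈ N := Subgroup.Normal.conj_mem inferInstance n hn z
    exact N.mul_mem h1 (N.inv_mem hn)
  · intro t w hts hwt
    obtain ⟨n, hn, hnt⟩ := hb t s0 z hts hz
    have h1 : (n * z) * w * (n * z)⁻¹ * w⁻¹ ∈ N := by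
      refine ha t _ ?_ ?_
      · have e1 : (n * z)⁻¹ • t = t := by rw [inv_smul_eq_iff, hnt]
        have e2 : w⁻¹ • t = t := by rw [inv_smul_eq_iff, hwt]
        rw [mul_smul, e2, mul_smul, e1, mul_smul, hwt, hnt]
      · rw [map_mul, map_mul, map_mul, map_inv, map_inv]
        rw [mul_comm (cl (n * z)) (cl w), mul_assoc (cl w), mul_inv_cancel, mul_one,
          mul_inv_cancel]
    have h2 : n * z ∈ comMod N w := by
      rw [mem_comMod]
      have := N.inv_mem h1
      have e : ((n * z) * w * (n * z)⁻¹ * w⁻¹)⁻¹ = w * (n * z) * w⁻¹ * (n * z)⁻¹ := by group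
      rwa [e] at this
    have h3 : n ∈ comMod N w := by
      rw [mem_comMod]
      exact N.mul_mem (Subgroup.Normal.conj_mem inferInstance n hn w) (N.inv_mem hn)
    have h4 : z ∈ comMod N w := by
      have := (comMod N w).mul_mem ((comMod N w).inv_mem h3) h2
      rwa [inv_mul_cancel_left] at this
    rw [mem_comMod] at h4 ⊢
    have := N.inv_mem h4
    have e : (w * z * w⁻¹ * z⁻¹)⁻¹ = z * w * z⁻¹ * w⁻¹ := by group
    rwa [e] at this

end

/-- **The abstract lemma of D4T** (helper67 #16027, helper61 #16258). -/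
theorem abs (R : T → S → Prop) (hR : ∀ (g : A) (t : T) (s : S), R t s → R (g • t) (g • s))
    (N : Subgroup A) [N.Normal] (cl : A →* Θ) (hN : N ≤ cl.ker)
    (ha : ∀ (t : T) (z : A), z • t = t → cl z = 1 → z ∈ N)
    (hb : ∀ (t : T) (s : S) (z : A), R t s → z • s = s → ∃ n ∈ N, (n * z) • t = t)
    (s0 : S) (t0 : T) (h0 : R t0 s0) (hc : Conn A R s0)
    (he : ∀ t : T, R t s0 → ∀ z : A, z • t = t →
      z ∈ Subgroup.closure ((N : Set A) ∪
        {w : A | w • t = t ∧ ∃ s : S, R t s ∧ Conn A R s ∧ w • s = s ∧ ∃ y : A, R (y • t0) s})) :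
    ∀ g : A, cl g = 1 → g ∈ N := by
  -- every stabiliser of a point of `s0` is central modulo `N`
  have hcen : ∀ t : T, R t s0 → ∀ z : A, z • t = t → CenMod N z := by
    intro t ht z hz
    rw [cenMod_iff, ← Subgroup.mem_comap]
    refine (Subgroup.closure_le _).2 ?_ (he t ht z hz)
    rintro w (hw | ⟨hwt, s, hts, hcs, hws, -⟩)
    · show (QuotientGroup.mk' N w) ∈ Subgroup.center (A ⧸ N)
      have : QuotientGroup.mk' N w = 1 := (QuotientGroup.eq_one_iff w).2 hw
      rw [this]
      exact Subgroup.one_mem _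
    · show (QuotientGroup.mk' N w) ∈ Subgroup.center (A ⧸ N)
      rw [← cenMod_iff]
      exact cen_line (cl := cl) hR ha hb hts hcs hws
  -- `H₀ = N Stab(t0)`
  let H₀ : Subgroup A := N ⊔ MulAction.stabilizer A t0
  have hst : ∀ t : T, R t s0 → ∀ z : A, z • t = t → z ∈ H₀ := by
    intro t ht z hz
    refine (Subgroup.closure_le H₀).2 ?_ (he t ht z hz)
    rintro w (hw | ⟨hwt, s, hts, hcs, hws, y, hys⟩)
    · exact (le_sup_left : N ≤ H₀) hw
    · obtain ⟨n, hn, hnt⟩ := hb _ s w hys hws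
      -- `v := y⁻¹ n w y` fixes `t0` and is congruent to `w`
      have h1 : (y⁻¹ * (n * w) * y) • t0 = t0 := by
        rw [mul_smul, mul_smul, hnt, inv_smul_smul]
      have hv : CenMod N (y⁻¹ * (n * w) * y) := hcen t0 h0 _ h1
      have h2 := hv y⁻¹
      -- v y⁻¹ v⁻¹ y ∈ N
      have h3 : w * (y⁻¹ * (n * w) * y)⁻¹ ∈ N := by
        have e1 : CenMod N w := cen_line (cl := cl) hR ha hb hts hcs hws
        have e2 : w * y⁻¹ * w⁻¹ * y⁻¹⁻¹ ∈ N := e1 y⁻¹
        have e3 : y⁻¹ * n⁻¹ * y⁻¹⁻¹ ∈ N :=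
          Subgroup.Normal.conj_mem inferInstance _ (N.inv_mem hn) y⁻¹
        have e4 := N.mul_mem e2 e3
        have e5 : w * (y⁻¹ * (n * w) * y)⁻¹ = w * y⁻¹ * w⁻¹ * y⁻¹⁻¹ * (y⁻¹ * n⁻¹ * y⁻¹⁻¹) := by
          group
        rw [e5]
        exact e4
      have h4 : w = (w * (y⁻¹ * (n * w) * y)⁻¹) * (y⁻¹ * (n * w) * y) := by group
      show w ∈ H₀
      rw [h4]
      exact H₀.mul_mem ((le_sup_left : N ≤ H₀) h3)
        ((le_sup_right : MulAction.stabilizer A t0 ≤ H₀) (MulAction.mem_stabilizer_iff.2 h1))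
  intro g hg
  have hgH : g ∈ H₀ := gen (N := N) (t0 := t0) hR le_sup_left
    (fun t z ht hz => hst t ht z hz) hb h0 hc g
  rw [← SetLike.mem_coe, Subgroup.normal_mul] at hgH
  obtain ⟨n, hn, z, hz, rfl⟩ := hgH
  have h1 : cl z = 1 := by
    have e1 : cl n = 1 := hN hn
    rw [map_mul, e1, one_mul] at hg
    exact hg
  exact N.mul_mem hn (ha t0 z (MulAction.mem_stabilizer_iff.1 hz) h1)

end Vale.Agent.P011.D4T
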