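import Vale.Agent.P011.E6.Coord
import Vale.Agent.P011.D4T.Abs2

/-!
Block D4T: trialitarian groups with nontrivial Tits class (model of helper657).

`k ⊂ L ⊂ E`, `L / k` cyclic cubic, `E = L(α)`, `α² = a`, `ρ`, `σ` commuting automorphisms of `E`
of orders three and two (`σ` over `L`), `q ∈ Lˣ` with norm one, `C = (a, b, c)` over `k`,
`e± = (1 ± i / α) / 2`, `m = q e₊ + e₋`, `m' = q ρ(q) e₊ + e₋`, `J x = m σ(x) m'`.
-/

open NumberField Topology

namespace Vale.Agent.P011.D4T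

open Vale.Agent.P011.MPQ Vale.Agent.P011.D4 Vale.Agent.P011.D4.Oct Vale.Agent.P011.E6

section model

variable {k L E : Type} [Field k] [Field L] [Field E] [Algebra k L] [Algebra k E] [Algebra L E]
  [IsScalarTower k L E]

/-- The quaternion `t e₊ + e₋`. -/
def mq (a b : kˣ) (α t : E) : Qt (up E a) (up E b) := ⟨(t + 1) / 2, (t - 1) / (2 * α), 0, 0⟩

/-- The semilinear map `J x = m σ(x) m'`. -/
def Jm (ρ σ : E ≃ₐ[k] E) (α : E) (q : Lˣ) {a b c : kˣ} (x : OctL E a b c) : OctL E a b c :=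
  ⟨mq a b α (algebraMap L E q) * qmap σ x.fst *
      mq a b α (algebraMap L E q * ρ (algebraMap L E q)),
    qmap σ x.snd * (mq a b α (algebraMap L E q) *
      star (mq a b α (algebraMap L E q * ρ (algebraMap L E q))))⟩

/-- The hypotheses of the model. -/
structure Hy (ρ σ : E ≃ₐ[k] E) (ρL : L ≃ₐ[k] L) (α : E) (a b c : kˣ) (q : Lˣ) : Prop where
  h3 : Module.finrank k L = 3
  h2 : Module.finrank L E = 2
  ρ1 : ρL ≠ 1
  ρ3 : ∀ x, ρ (ρ (ρ x)) = x
  ρL' : ∀ t : L, ρ (algebraMap L E t) = algebraMap L E (ρL t)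
  σL : ∀ t : L, σ (algebraMap L E t) = algebraMap L E t
  σ2 : ∀ x, σ (σ x) = x
  comm : ∀ x, σ (ρ x) = ρ (σ x)
  α2 : α * α = algebraMap k E a
  ρα : ρ α = α
  σα : σ α = -α
  hq : (q : L) * ρL q * ρL (ρL q) = 1
  hdiv : Division a b c
  /-- good parameters at the real places -/
  hre : ∀ w : L →+* ℝ, w (algebraMap k L a) < 0 →
    w (algebraMap k L b) < 0 ∧ w (algebraMap k L c) < 0 ∧ 0 < w (q : L)

/-- The group of rational points of the trialitarian group. -/
def GT (ρ σ : E ≃ₐ[k] E) (α : E) (a b c : kˣ) (q : Lˣ) :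
    Subgroup (OctL E a b c ≃ₗ[E] OctL E a b c) where
  carrier := {g | (∀ x y, g (tri ρ x y) = tri ρ (g x) (g y)) ∧
    ∀ x, g (Jm ρ σ α q x) = Jm ρ σ α q (g x)}
  mul_mem' := by
    rintro g h ⟨g1, g2⟩ ⟨h1, h2⟩
    refine ⟨fun x y => ?_, fun x => ?_⟩
    · rw [LinearEquiv.mul_apply, LinearEquiv.mul_apply, LinearEquiv.mul_apply, h1, g1]
    · rw [LinearEquiv.mul_apply, LinearEquiv.mul_apply, h2, g2]
  one_mem' := ⟨fun _ _ => rfl, fun _ => rfl⟩
  inv_mem' := by
    rintro g ⟨g1, g2⟩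
    have h : ∀ z, g (g⁻¹ z) = z := fun z => by
      rw [← LinearEquiv.mul_apply, mul_inv_cancel]; rfl
    refine ⟨fun x y => ?_, fun x => ?_⟩
    · apply g.injective
      rw [g1, h, h, h]
    · apply g.injective
      rw [g2, h, h]

/-- The multiplier of a similitude of the cyclic composition. -/
def IsKap (ρ : E ≃ₐ[k] E) {a b c : kˣ} (z : OctL E a b c ≃ₗ[E] OctL E a b c) (κ : Lˣ) : Prop :=
  ∀ x y, z (tri ρ x y) = algebraMap L E (κ : L) • tri ρ (z x) (z y)

/-- The adjoint group (times the scalars of `L`): the similitudes which commute with `J`. -/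
def AT (ρ σ : E ≃ₐ[k] E) (α : E) (a b c : kˣ) (q : Lˣ) :
    Subgroup (OctL E a b c ≃ₗ[E] OctL E a b c) where
  carrier := {z | (∃ κ : Lˣ, IsKap ρ z κ) ∧ ∀ x, z (Jm ρ σ α q x) = Jm ρ σ α q (z x)}
  mul_mem' := by
    rintro g h ⟨⟨κ, g1⟩, g2⟩ ⟨⟨κ', h1⟩, h2⟩
    refine ⟨⟨κ * κ', fun x y => ?_⟩, fun x => ?_⟩
    · rw [LinearEquiv.mul_apply, LinearEquiv.mul_apply, LinearEquiv.mul_apply, h1, map_smul, g1,
        smul_smul, Units.val_mul, map_mul, mul_comm (algebraMap L E (κ : L))]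
    · rw [LinearEquiv.mul_apply, LinearEquiv.mul_apply, h2, g2]
  one_mem' := ⟨⟨1, fun x y => by
    rw [Units.val_one, map_one, one_smul]; rfl⟩, fun _ => rfl⟩
  inv_mem' := by
    rintro g ⟨⟨κ, g1⟩, g2⟩
    have h : ∀ z, g (g⁻¹ z) = z := fun z => by
      rw [← LinearEquiv.mul_apply, mul_inv_cancel]; rfl
    refine ⟨⟨κ⁻¹, fun x y => ?_⟩, fun x => ?_⟩
    · apply g.injective
      rw [map_smul, g1, h, h, h, smul_smul, ← map_mul, Units.inv_mul, map_one, one_smul]
    · apply g.injective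
      rw [g2, h, h]

/-- The idempotent `e₊`. -/
def ep (α : E) {a b c : kˣ} : OctL E a b c := ⟨⟨1 / 2, 1 / (2 * α), 0, 0⟩, 0⟩

/-- The standard involution `(y₀, y₁) ↦ (y₀, - y₁)`. -/
def t0 (E : Type) [Field E] [Algebra k E] (a b c : kˣ) : OctL E a b c ≃ₗ[E] OctL E a b c where
  toFun x := ⟨x.fst, -x.snd⟩
  invFun x := ⟨x.fst, -x.snd⟩
  left_inv x := by ext1 <;> simp
  right_inv x := by ext1 <;> simp
  map_add' x y := by
    ext1
    · simp
    · simp only [snd_add, neg_add]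
  map_smul' t x := by ext1 <;> simp

variable [NeZero (2 : E)]

/-- The involution of the quaternion algebra generated by `i` and `j'`. -/
noncomputable def tQ (E : Type) [Field E] [Algebra k E] [NeZero (2 : E)] {a b c b' c' : kˣ}
    {j l : Oct a b c} (h : Trip a b' c' gi j l) : OctL E a b c ≃ₗ[E] OctL E a b c :=
  ((tripO E h).symm.trans (t0 E a b' c')).trans (tripO E h)

/-- The centraliser, in `AT`, of the involution of the quaternion algebra generated by `i`
and `j'`. -/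
def stab (ρ σ : E ≃ₐ[k] E) (α : E) (q : Lˣ) {a b c b' c' : kˣ} {j l : Oct a b c}
    (h : Trip a b' c' gi j l) : Subgroup (AT ρ σ α a b c q) where
  carrier := {z | z.1 * tQ E h = tQ E h * z.1}
  mul_mem' := by
    intro x y hx hy
    change x.1 * y.1 * tQ E h = tQ E h * (x.1 * y.1)
    have hx' : x.1 * tQ E h = tQ E h * x.1 := hx
    have hy' : y.1 * tQ E h = tQ E h * y.1 := hy
    rw [mul_assoc, hy', ← mul_assoc, hx', mul_assoc]
  one_mem' := by
    change (1 : OctL E a b c ≃ₗ[E] OctL E a b c) * tQ E h = tQ E h * 1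
    rw [one_mul, mul_one]
  inv_mem' := by
    intro x hx
    change x.1⁻¹ * tQ E h = tQ E h * x.1⁻¹
    have hx' : x.1 * tQ E h = tQ E h * x.1 := hx
    rw [inv_mul_eq_iff_eq_mul, ← mul_assoc, hx', mul_assoc, mul_inv_cancel, mul_one]

/-- The centraliser of the standard involution. -/
def stab0 (ρ σ : E ≃ₐ[k] E) (α : E) (a b c : kˣ) (q : Lˣ) : Subgroup (AT ρ σ α a b c q) where
  carrier := {z | ∀ x, z.1 (t0 E a b c x) = t0 E a b c (z.1 x)}
  mul_mem' := by
    intro x y hx hy v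
    change x.1 (y.1 (t0 E a b c v)) = t0 E a b c (x.1 (y.1 v))
    rw [hy, hx]
  one_mem' := fun _ => rfl
  inv_mem' := by
    intro x hx v
    have h : ∀ z, x.1 (x.1⁻¹ z) = z := fun z => by
      rw [← LinearEquiv.mul_apply, mul_inv_cancel]; rfl
    change x.1⁻¹ (t0 E a b c v) = t0 E a b c (x.1⁻¹ v)
    apply x.1.injective
    rw [h, hx, h]

end model

/-- The intersection of all subgroups of finite index. -/
def fres (G : Type) [Group G] : Subgroup G := ⨅ N : {N : Subgroup G // N.index ≠ 0}, N.1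

section classes

variable {k L E : Type} [Field k] [Field L] [Field E] [Algebra k L] [Algebra k E] [Algebra L E]
  [IsScalarTower k L E]

/-- The finite residual of `GT`, as a group of linear maps. -/
def Rs (ρ σ : E ≃ₐ[k] E) (α : E) (a b c : kˣ) (q : Lˣ) :
    Subgroup (OctL E a b c ≃ₗ[E] OctL E a b c) :=
  (fres (GT ρ σ α a b c q)).map (GT ρ σ α a b c q).subtype

/-- The elements of `AT` which are scalar multiples of elements of the finite residual. -/
def IsN (ρ σ : E ≃ₐ[k] E) (α : E) (a b c : kˣ) (q : Lˣ) (z : AT ρ σ α a b c q) : Prop :=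
  ∃ (l : Lˣ) (g : OctL E a b c ≃ₗ[E] OctL E a b c), g ∈ Rs ρ σ α a b c q ∧
    ∀ x, z.1 x = algebraMap L E (l : L) • g x

/-- The group `k* L*²`. -/
def SqL (k L : Type) [Field k] [Field L] [Algebra k L] : Subgroup Lˣ :=
  (Units.map (algebraMap k L : k →* L)).range ⊔ (powMonoidHom 2 : Lˣ →* Lˣ).range

end classes

end Vale.Agent.P011.D4T
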