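import Vale.Agent.P011.D4.Defs

/-!
The trialitarian group of an octonion algebra, a cyclic cubic extension and an element of norm one.
-/

open Module

namespace Vale.Agent.P011.D4T

open Vale.Agent.P011.MPQ Vale.Agent.P011.D4

/-- The property holds for the identity, for compositions and for inverse maps. -/
structure IsGrp {V : Type} (P : (V → V) → Prop) : Prop where
  /-- the identity -/
  one : P id
  /-- compositions -/
  comp : ∀ f g, P f → P g → P (f ∘ g)
  /-- inverse maps -/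
  inv : ∀ f g, (∀ x, f (g x) = x) → (∀ x, g (f x) = x) → P f → P g

/-- The group of the permutations with the property `P`. -/
def permGroup {V : Type} (P : (V → V) → Prop) (h : IsGrp P) : Subgroup (Equiv.Perm V) where
  carrier := {φ | P φ}
  mul_mem' := fun {f g} hf hg => h.comp f g hf hg
  one_mem' := h.one
  inv_mem' := fun {f} hf => h.inv f (f⁻¹ : Equiv.Perm V) (fun x => f.apply_symm_apply x)
    (fun x => f.symm_apply_apply x) hf

/-- Every normal subgroup of the group `G` is trivial or everything. -/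
def IsSimpleP {V : Type} (G : Subgroup (Equiv.Perm V)) : Prop :=
  ∀ N : Subgroup G, N.Normal → N = ⊥ ∨ N = ⊤

/-- The group `G` has no proper subgroup of finite index. -/
def NoIndex {V : Type} (G : Subgroup (Equiv.Perm V)) : Prop :=
  ∀ N : Subgroup G, N.index ≠ 0 → N = ⊤

variable {k E : Type} [Field k] [Field E] [Algebra k E]

/-- The octonion `t e₊ + e₋`, where `e₊ = (1 + i / α) / 2` and `e₋ = (1 - i / α) / 2`. -/
def me (α t : E) {a b c : kˣ} : OctL E a b c := ⟨⟨(t + 1) / 2, (t - 1) / (2 * α), 0, 0⟩, 0⟩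

/-- The semilinear map `x ↦ m σ(x) m'`, where `m = q e₊ + e₋` and `m' = q ρ(q) e₊ + e₋`. -/
def Jt (ρ σ : E ≃ₐ[k] E) (α q : E) {a b c : kˣ} (x : OctL E a b c) : OctL E a b c :=
  me α q * omap σ x * me α (q * ρ q)

/-- The map `g` is linear over `E`, is compatible with the product of the cyclic composition and
commutes with `x ↦ m σ(x) m'`. -/
def IsTriT (ρ σ : E ≃ₐ[k] E) (α q : E) {a b c : kˣ} (g : OctL E a b c → OctL E a b c) : Prop :=
  (∀ x y, g (x + y) = g x + g y) ∧ (∀ (t : E) x, g (t • x) = t • g x) ∧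
    (∀ x y, g (tri ρ x y) = tri ρ (g x) (g y)) ∧ ∀ x, g (Jt ρ σ α q x) = Jt ρ σ α q (g x)

theorem isGrp_triT (ρ σ : E ≃ₐ[k] E) (α q : E) (a b c : kˣ) :
    IsGrp (IsTriT ρ σ α q (a := a) (b := b) (c := c)) := by
  refine ⟨⟨fun _ _ => rfl, fun _ _ => rfl, fun _ _ => rfl, fun _ => rfl⟩, ?_, ?_⟩
  · rintro g h ⟨g1, g2, g3, g4⟩ ⟨h1, h2, h3, h4⟩
    refine ⟨fun x y => ?_, fun t x => ?_, fun x y => ?_, fun x => ?_⟩
    · rw [Function.comp_apply, h1, g1]; rfl
    · rw [Function.comp_apply, h2, g2]; rfl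
    · rw [Function.comp_apply, h3, g3]; rfl
    · rw [Function.comp_apply, h4, g4]; rfl
  · rintro g h e e' ⟨g1, g2, g3, g4⟩
    refine ⟨fun x y => ?_, fun t x => ?_, fun x y => ?_, fun x => ?_⟩
    · rw [← e' (h x + h y), g1, e, e]
    · rw [← e' (t • h x), g2, e]
    · rw [← e' (tri ρ (h x) (h y)), g3, e, e]
    · rw [← e' (Jt ρ σ α q (h x)), g4, e]

/-- The group of rational points of the trialitarian group. -/
def TT (ρ σ : E ≃ₐ[k] E) (α q : E) (a b c : kˣ) : Subgroup (Equiv.Perm (OctL E a b c)) :=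
  permGroup (IsTriT ρ σ α q) (isGrp_triT ρ σ α q a b c)

/-- The data: `E / k` has degree six, `ρ` and `σ` are commuting automorphisms of orders three and
two, `α ^ 2 = a` with `ρ(α) = α` and `σ(α) = -α`, the element `q` is fixed by `σ` and has norm one
over the fixed field of `ρ`, the octonion algebra `(a, b, c)` over `k` is a division algebra, and
it is definite and `q` is totally positive at the real places of `k` where `a` is negative. -/
structure IsData (ρ σ : E ≃ₐ[k] E) (α q : E) (a b c : kˣ) : Prop where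
  deg : finrank k E = 6
  ρ1 : ∃ x, ρ x ≠ x
  ρ3 : ∀ x, ρ (ρ (ρ x)) = x
  σ2 : ∀ x, σ (σ x) = x
  comm : ∀ x, σ (ρ x) = ρ (σ x)
  α2 : α ^ 2 = algebraMap k E a
  ρα : ρ α = α
  σα : σ α = -α
  σq : σ q = q
  nq : q * ρ q * ρ (ρ q) = 1
  div : Oct.Division a b c
  real : ∀ τ : k →+* ℝ, τ a < 0 → τ b < 0 ∧ τ c < 0 ∧
    ∀ w : E →+* ℂ, (∀ t, w (algebraMap k E t) = τ t) → 0 < (w q).re

end Vale.Agent.P011.D4T
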