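import Vale.Agent.P011.D4T.HFinOf
import Vale.Agent.P011.D4T.H691.Fin

/-!
The final theorem on trialitarian groups with nontrivial Tits class, for the group of permutations.
-/

open Module NumberField

namespace Vale.Agent.P011.D4T

open Vale.Agent.P011.MPQ Vale.Agent.P011.D4 Vale.Agent.P011.D4.Oct

/-- **Trialitarian groups with nontrivial Tits class**, final form. -/
theorem tt_top {k E : Type} [Field k] [NumberField k] [Field E] [Algebra k E]
    {ρ σ : E ≃ₐ[k] E} {α q : E} {a b c : kˣ} (H : IsData ρ σ α q a b c)
    (N : Subgroup (TT ρ σ α q a b c)) (hN : N.index ≠ 0) : N = ⊤ := by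
  have hfin := H.finite
  have hE : NumberField E := NumberField.of_module_finite k E
  have hL : NumberField (LL σ) := NumberField.of_module_finite k (LL σ)
  have h2 : NeZero (2 : E) := ⟨two_ne_zero⟩
  exact tt_of (fun M hM => gt_top H.hy M hM) N hN

end Vale.Agent.P011.D4T
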