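import Vale.Agent.P011.D4T.Defs2

/-!
Block D4T: literal statements of the rows (proof structure of helper67, #17555 and #17846).
-/

open NumberField Topology

namespace Vale.Agent.P011.D4T.Spec

open Vale.Agent.P011.MPQ Vale.Agent.P011.D4 Vale.Agent.P011.D4.Oct Vale.Agent.P011.E6
open Vale.Agent.P011.D4T

section alg

variable {k L E : Type} [Field k] [Field L] [Field E] [Algebra k L] [Algebra k E] [Algebra L E]
  [IsScalarTower k L E] [NeZero (2 : k)] [NeZero (2 : E)] {ρ σ : E ≃ₐ[k] E} {ρL : L ≃ₐ[k] L} {α : E}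
  {a b c : kˣ} {q : Lˣ} (H : Hy ρ σ ρL α a b c q)

include H

/-! ### BAS (657) -/

theorem Jm_add (x y : OctL E a b c) : Jm ρ σ α q (x + y) = Jm ρ σ α q x + Jm ρ σ α q y := sorry

theorem Jm_smul (t : E) (x : OctL E a b c) : Jm ρ σ α q (t • x) = σ t • Jm ρ σ α q x := sorry

theorem Jm_Jm (x : OctL E a b c) : Jm ρ σ α q (Jm ρ σ α q x) = rr ρ q • x := sorry

theorem Jm_tri (x y : OctL E a b c) :
    Jm ρ σ α q (tri ρ x y) = rr ρ q • tri ρ (Jm ρ σ α q x) (Jm ρ σ α q y) := sorry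

theorem bil_Jm (x y : OctL E a b c) :
    bil (Jm ρ σ α q x) (Jm ρ σ α q y) = rr ρ q * σ (bil x y) := sorry

theorem psiL_mul (x y : Qt (up L a) (q * up L b)) :
    (psiL α q (x * y) : Qt (up E a) (up E b)) = psiL α q x * psiL α q y := sorry

theorem nrd_psiL (x : Qt (up L a) (q * up L b)) :
    nrd (psiL α q x : Qt (up E a) (up E b)) = algebraMap L E (nrd x) := sorry

theorem exists_psiL (x : Qt (up E a) (up E b))
    (hx : mq a b α (algebraMap L E q) * qmap σ x = x * mq a b α (algebraMap L E q)) :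
    ∃ y : Qt (up L a) (q * up L b), psiL α q y = x := sorry

/-- The adjoint elements which commute with the standard involution. -/
theorem exists_z (x0 : Qt a b) (x : Qt (up L a) (q * up L b)) (s : kˣ)
    (h : algebraMap k L (nrd x0) * (nrd x * ρL (nrd x) * ρL (ρL (nrd x))) =
      algebraMap k L ((s : k) ^ 2)) :
    ∃ z : AT ρ σ α a b c q, z ∈ stab0 ρ σ α a b c q ∧
      (∀ κ : Lˣ, ρL (nrd x) * κ = 1 → IsKap ρ z.1 κ) ∧ ∀ y, z.1 y = zF ρ ρL α q x0 x s y := sorry

theorem exists_long (x : SL1 a b) : ∃ g ∈ GT ρ σ α a b c q, ∀ y : OctL E a b c,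
    g y = ⟨y.fst, qup E ((x : (Qt a b)ˣ) : Qt a b) * y.snd⟩ := sorry

theorem exists_short (x : SL1 (up L a) (q * up L b)) : ∃ g ∈ GT ρ σ α a b c q,
    ∀ y : OctL E a b c, g y = shortFun ρ (psiL α q ((x : (Qt (up L a) (q * up L b))ˣ) :
      Qt (up L a) (q * up L b))) y := sorry

/-- TOR (657): the central torus. -/
theorem exists_tor (x : E) (hx : x ≠ 0) : ∃ (z : AT ρ σ α a b c q) (κ : Lˣ),
    IsKap ρ z.1 κ ∧ algebraMap L E (κ : L) = x * σ x ∧
      ∀ {b' c' : kˣ} {j l : Oct a b c} (h : Trip a b' c' gi j l), z ∈ stab ρ σ α q h := sorry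

/-! ### CH (691): change of `j`, `l` (with `i` fixed), scalars, classes -/

theorem tripO_tri {b' c' : kˣ} {j l : Oct a b c} (h : Trip a b' c' gi j l)
    (x y : OctL E a b' c') :
    tripO E h (tri ρ x y) = tri ρ (tripO E h x) (tripO E h y) := sorry

theorem tripO_Jm {b' c' : kˣ} {j l : Oct a b c} (h : Trip a b' c' gi j l)
    (x : OctL E a b' c') :
    tripO E h (Jm ρ σ α q x) = Jm ρ σ α q (tripO E h x) := sorry

theorem kap_unique {z : OctL E a b c ≃ₗ[E] OctL E a b c} {κ κ' : Lˣ} (h : IsKap ρ z κ)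
    (h' : IsKap ρ z κ') : κ = κ' := sorry

/-- An element of class one is a scalar times an element of `GT`. -/
theorem exists_scal {z : AT ρ σ α a b c q} {κ : Lˣ} (h : IsKap ρ z.1 κ) (hκ : κ ∈ SqL k L) :
    ∃ (l : Lˣ) (g : OctL E a b c ≃ₗ[E] OctL E a b c), g ∈ GT ρ σ α a b c q ∧
      ∀ x, z.1 x = algebraMap L E (l : L) • g x := sorry

/-! ### GEN -/

/-- D1a' (63): the singular vectors whose plane is the standard plane. -/
theorem sing_ep {v : OctL E a b c} (hv : Pt ρ v) {t : E} (ht : t ≠ 0)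
    (h : tri ρ v (Jm ρ σ α q v) = t • ep α) : ∃ (s : E) (w : Oct a b c), s ≠ 0 ∧ w ≠ 0 ∧
      dot w 1 = 0 ∧ dot w gi = 0 ∧ v = s • (ep α * oup E w) := sorry

/-- D1a (63): the neighbours of a standard singular vector. -/
theorem nb_ep {v : OctL E a b c} (hv : Pt ρ v) (h : Nb ρ (ep α * oup E (gl : Oct a b c)) v) :
    ∃ (s t : E) (f : Oct a b c), dot f 1 = 0 ∧ dot f gi = 0 ∧ dot f gl = 0 ∧
      dot f (gi * gl) = 0 ∧ v = s • (ep α * oup E gl) + t • ((1 - ep α) * oup E f) := sorry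

/-- R: the involutions of `GT` which fix `e₊`. -/
theorem exists_tQ {t : OctL E a b c ≃ₗ[E] OctL E a b c} (ht : t ∈ GT ρ σ α a b c q)
    (h1 : t ≠ 1) (h2 : t * t = 1) (he : t (ep α) = ep α) :
    ∃ (b' c' : kˣ) (j l : Oct a b c) (h : Trip a b' c' gi j l), t = tQ E h := sorry

end alg

section arith

variable {k L E : Type} [Field k] [NumberField k] [Field L] [NumberField L] [Field E]
  [Algebra k L] [Algebra k E] [Algebra L E]
  [IsScalarTower k L E] [NeZero (2 : E)] {ρ σ : E ≃ₐ[k] E} {ρL : L ≃ₐ[k] L} {α : E}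
  {a b c : kˣ} {q : Lˣ} (H : Hy ρ σ ρL α a b c q)

include H

/-- D1e (63): there is no isotropic vector for `J`. -/
theorem aniso {v : OctL E a b c} (hv : v ≠ 0) : bil v (Jm ρ σ α q v) ≠ 0 := sorry

/-- D1b' (657): transitivity along the standard line. -/
theorem exists_line (s t : E) (h : s ≠ 0 ∨ t ≠ 0) :
    ∃ z ∈ stab0 ρ σ α a b c q, ∃ r : E, r ≠ 0 ∧
      z.1 (ep α) = r • tri ρ (s • (ep α * gl) + t • ((1 - ep α) * (gj * gl)) : OctL E a b c)
        (Jm ρ σ α q (s • (ep α * gl) + t • ((1 - ep α) * (gj * gl)))) := sorry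

/-- CENT (547): the similitudes which commute with the standard involution. -/
theorem cent {z : AT ρ σ α a b c q} (hz : z ∈ stab0 ρ σ α a b c q) :
    ∃ (x0 : Qt a b) (x : Qt (up L a) (q * up L b)) (s : kˣ) (l : Lˣ),
      algebraMap k L (nrd x0) * (nrd x * ρL (nrd x) * ρL (ρL (nrd x))) =
        algebraMap k L ((s : k) ^ 2) ∧
      ∀ y, z.1 y = algebraMap L E (l : L) • zF ρ ρL α q x0 x s y := sorry

/-- GEN1 (659): every plane is a translate of the standard plane. -/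
theorem gen1 {v : OctL E a b c} (hv : Pt ρ v) : ∃ y ∈ stabs ρ σ α a b c q, ∃ t : E, t ≠ 0 ∧
    y.1 (tri ρ v (Jm ρ σ α q v)) = t • ep α := sorry

/-- GEN2 (659): the stabiliser of the standard plane (Witt). -/
theorem gen2 {z : AT ρ σ α a b c q} {t : E} (hz : z.1 (ep α) = t • ep α) :
    z ∈ stabs ρ σ α a b c q := sorry

/-- GEN: generation by the centralisers of the involutions of the standard plane. -/
theorem gen : stabs ρ σ α a b c q = ⊤ := sorry

/-! ### F1: the centralisers in `GT` lie in the finite residual -/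

/-- F1a (798): the automorphisms of the octonion algebra which fix `i`. -/
theorem autI_mem {g : OctL E a b c ≃ₗ[E] OctL E a b c} (hg : g ∈ GT ρ σ α a b c q)
    (he : g (ep α) = ep α) : g ∈ Rs ρ σ α a b c q := sorry

/-- F1b (637): the torus. -/
theorem tor_mem {x : SL1 (up L a) (q * up L b)}
    (hJ : ((x : (Qt (up L a) (q * up L b))ˣ) : Qt (up L a) (q * up L b)).imJ = 0)
    (hK : ((x : (Qt (up L a) (q * up L b))ˣ) : Qt (up L a) (q * up L b)).imK = 0)
    {g : OctL E a b c ≃ₗ[E] OctL E a b c}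
    (hg : ∀ y : OctL E a b c, g y = shortFun ρ (psiL α q ((x : (Qt (up L a) (q * up L b))ˣ) :
      Qt (up L a) (q * up L b))) y) : g ∈ Rs ρ σ α a b c q := sorry

/-- F1b': the tori of the other good types (from F1b and KC). -/
theorem torD_mem {x : SL1 (up L a) (q * up L b)} {D : k} {w : Qt (up L a) (q * up L b)}
    (hD : GoodD a b q D) (hw0 : w.re = 0) (hw : w * w = algebraMap k L D • 1) {s t : L}
    (hx : ((x : (Qt (up L a) (q * up L b))ˣ) : Qt (up L a) (q * up L b)) = s • 1 + t • w)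
    {g : OctL E a b c ≃ₗ[E] OctL E a b c}
    (hg : ∀ y : OctL E a b c, g y = shortFun ρ (psiL α q ((x : (Qt (up L a) (q * up L b))ˣ) :
      Qt (up L a) (q * up L b))) y) : g ∈ Rs ρ σ α a b c q := sorry

/-- F1c (370, 862): generation of `SL_1(Q_1)` by tori. -/
theorem short_mem {x : SL1 (up L a) (q * up L b)} {g : OctL E a b c ≃ₗ[E] OctL E a b c}
    (hg : ∀ y : OctL E a b c, g y = shortFun ρ (psiL α q ((x : (Qt (up L a) (q * up L b))ˣ) :
      Qt (up L a) (q * up L b))) y) : g ∈ Rs ρ σ α a b c q := sorry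

/-- F1d: the elements with `nrd x₀ = nrd x ∈ k*` (normalised by `κ = 1`). -/
theorem mix_mem {x0 : Qt a b} {x : Qt (up L a) (q * up L b)} {s : kˣ} (h0 : nrd x0 = s)
    (h1 : nrd x = algebraMap k L (s : k)) {g : OctL E a b c ≃ₗ[E] OctL E a b c}
    (hg : ∀ y : OctL E a b c, g y =
      (algebraMap k E (s : k))⁻¹ • zF ρ ρL α q x0 x (s ^ 2) y) : g ∈ Rs ρ σ α a b c q := sorry

/-- F1 (assembly, 691): the elements of class one in a centraliser. -/
theorem stab_N {b' c' : kˣ} {j l : Oct a b c} (h : Trip a b' c' gi j l) {z : AT ρ σ α a b c q}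
    (hz : z ∈ stab ρ σ α q h) {κ : Lˣ} (hκ : IsKap ρ z.1 κ) (hcl : κ ∈ SqL k L) :
    IsN ρ σ α a b c q z := sorry

/-! ### KC + Z5 (67, 408, 691) -/

/-- The parts of the same class in the centralisers of two involutions of the standard plane are
congruent. -/
theorem part {b' c' : kˣ} {j l : Oct a b c} (h : Trip a b' c' gi j l) {D : k}
    (hD : GoodD a b q D) (hD' : GoodD a b' q D) {x y : L} (κ : Lˣ)
    (hκ : (κ : L) = x ^ 2 - algebraMap k L D * y ^ 2) :
    ∃ w w' : AT ρ σ α a b c q, w ∈ stab0 ρ σ α a b c q ∧ w' ∈ stab ρ σ α q h ∧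
      IsKap ρ w.1 κ ∧ IsKap ρ w'.1 κ ∧ IsN ρ σ α a b c q (w * w'⁻¹) := sorry

omit H in
/-- F4 (64): decomposition of a class. -/
theorem F4 (h3 : Module.finrank k L = 3) {ρL : L ≃ₐ[k] L} (hρ : ρL ≠ 1) {a b b' : kˣ} {q : Lˣ}
    (hb : Aniso a b) (hb' : Aniso a b')
    (hr : ∀ w : L →+* ℝ, w (algebraMap k L a) < 0 →
      w (algebraMap k L b) < 0 ∧ w (algebraMap k L b') < 0 ∧ 0 < w (q : L))
    (ν : Lˣ) (hν : ∀ w : L →+* ℝ, w (algebraMap k L a) < 0 → 0 < w (ν : L)) :
    ∃ (D : Fin 3 → k) (x y : Fin 3 → L) (e : kˣ),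
      (∀ i, GoodD a b q (D i) ∧ GoodD a b' q (D i)) ∧
      (ν : L) = algebraMap k L (e : k) * ∏ i, (x i ^ 2 - algebraMap k L (D i) * y i ^ 2) := sorry

/-! ### Assembly (691) -/

/-- **D4T.** -/
theorem gt_top (N : Subgroup (GT ρ σ α a b c q)) (hN : N.index ≠ 0) : N = ⊤ := sorry

end arith

end Vale.Agent.P011.D4T.Spec
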